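import Vale.Agent.P122.EPS895.Defs

/-!
# From restricted weak type bounds to strong type bounds
-/

namespace Vale.Agent.P122.H346

open MeasureTheory Set Vale.Agent.P122.EPS Filter
open scoped ENNReal NNReal Topology

variable {μ : Measure V} [IsFiniteMeasure μ]

lemma norm_Ext_le_meas {g : V → ℂ} {Ω : Set V} (hΩ : MeasurableSet Ω)
    (h1 : ∀ ξ, ‖g ξ‖ ≤ 1) (h0 : ∀ ξ, ξ ∉ Ω → g ξ = 0) (x : V) :
    ‖Ext μ g x‖ ≤ (μ Ω).toReal := by
  refine (norm_Ext_le μ g x).trans ?_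
  have : ∫ ξ, ‖g ξ‖ ∂μ ≤ ∫ ξ, Ω.indicator (fun _ => (1 : ℝ)) ξ ∂μ := by
    refine integral_mono_of_nonneg (Filter.Eventually.of_forall fun _ => norm_nonneg _)
      ((integrable_const _).indicator hΩ) (Filter.Eventually.of_forall fun ξ => ?_)
    by_cases h : ξ ∈ Ω
    · simp [h, h1 ξ]
    · simp [h, h0 ξ h]
  refine this.trans (le_of_eq ?_)
  rw [integral_indicator_const _ hΩ]
  simp [Measure.real]

lemma integrable_of_bdd {g : V → ℂ} (hg : Measurable g) {c : ℝ} (h1 : ∀ ξ, ‖g ξ‖ ≤ c) :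
    Integrable g μ :=
  Integrable.mono' (integrable_const c) hg.aestronglyMeasurable
    (Filter.Eventually.of_forall h1)

lemma lint_rpow {M a : ℝ} (hM : 0 ≤ M) (ha : -1 < a) :
    ∫⁻ t in Ioc 0 M, ENNReal.ofReal (t ^ a) = ENNReal.ofReal (M ^ (a + 1) / (a + 1)) := by
  have h1 : IntegrableOn (fun t : ℝ => t ^ a) (Ioc 0 M) := by
    have := intervalIntegral.intervalIntegrable_rpow' (a := 0) (b := M) ha
    rwa [intervalIntegrable_iff_integrableOn_Ioc_of_le hM] at this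
  rw [← ofReal_integral_eq_lintegral_ofReal h1]
  · rw [← intervalIntegral.integral_of_le hM, integral_rpow (Or.inl ha),
      Real.zero_rpow (by linarith), sub_zero]
  · filter_upwards [ae_restrict_mem measurableSet_Ioc] with t ht
    exact Real.rpow_nonneg ht.1.le _

/-- Strong bounds with a gain for bounded functions. -/
lemma gain (h : RWeak μ) {q : ℝ} (hq : 3 < q) :
    ∃ (C : ℝ≥0) (η : ℝ), 0 < η ∧ ∀ (g : V → ℂ) (Ω : Set V), Measurable g → MeasurableSet Ω →
      (∀ ξ, ‖g ξ‖ ≤ 1) → (∀ ξ, ξ ∉ Ω → g ξ = 0) →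
      eLpNorm (Ext μ g) (ENNReal.ofReal q) volume ≤ C * (μ Ω) ^ (1 / q + η) := by
  set s : ℝ := (3 + q) / 2 with hs
  have hs3 : 3 < s := by rw [hs]; linarith
  have hsq : s < q := by rw [hs]; linarith
  have hq0 : 0 < q := by linarith
  obtain ⟨C, hC⟩ := h s hs3
  set K : ℝ≥0∞ := ENNReal.ofReal q * (C * ENNReal.ofReal (1 / (q - s))) with hK
  have hKt : K ≠ ∞ := by
    rw [hK]
    exact ENNReal.mul_ne_top ENNReal.ofReal_ne_top
      (ENNReal.mul_ne_top ENNReal.coe_ne_top ENNReal.ofReal_ne_top)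
  refine ⟨(K ^ (1 / q)).toNNReal, (q - s) / q, div_pos (by linarith) hq0, ?_⟩
  intro g Ω hg hΩ h1 h0
  have hint : Integrable g μ := integrable_of_bdd hg h1
  have hcont := continuous_Ext hint
  set M : ℝ := (μ Ω).toReal with hM
  have hM0 : 0 ≤ M := ENNReal.toReal_nonneg
  have hMμ : ENNReal.ofReal M = μ Ω := ENNReal.ofReal_toReal (measure_ne_top μ Ω)
  have hmain : ∫⁻ x, ‖Ext μ g x‖ₑ ^ q ≤ K * (μ Ω) ^ (1 + (q - s)) := by
    have e1 : ∀ x, ‖Ext μ g x‖ₑ ^ q = ENNReal.ofReal (‖Ext μ g x‖ ^ q) := by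
      intro x
      rw [← ofReal_norm, ENNReal.ofReal_rpow_of_nonneg (norm_nonneg _) hq0.le]
    simp_rw [e1]
    rw [lintegral_rpow_eq_lintegral_meas_lt_mul volume
      (Filter.Eventually.of_forall fun _ => norm_nonneg _)
      hcont.norm.aemeasurable hq0]
    have e2 : ∫⁻ t in Ioi (0 : ℝ), volume {a : V | t < ‖Ext μ g a‖} *
          ENNReal.ofReal (t ^ (q - 1)) ≤
        ∫⁻ t in Ioi (0 : ℝ), (Ioc 0 M).indicator
          (fun t => (C * μ Ω) * ENNReal.ofReal (t ^ (q - 1 - s))) t := by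
      refine setLIntegral_mono' measurableSet_Ioi fun t ht => ?_
      have ht0 : 0 < t := ht
      by_cases htM : t ≤ M
      · rw [indicator_of_mem (show t ∈ Ioc 0 M from ⟨ht0, htM⟩)]
        have h2 := hC g Ω hg hΩ h1 h0 t ht0
        calc volume {a : V | t < ‖Ext μ g a‖} * ENNReal.ofReal (t ^ (q - 1))
            ≤ (C * ENNReal.ofReal (t ^ (-s)) * μ Ω) * ENNReal.ofReal (t ^ (q - 1)) := by
              gcongr
          _ = (C * μ Ω) * (ENNReal.ofReal (t ^ (-s)) * ENNReal.ofReal (t ^ (q - 1))) := by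
              ring
          _ = (C * μ Ω) * ENNReal.ofReal (t ^ (q - 1 - s)) := by
              rw [← ENNReal.ofReal_mul (Real.rpow_nonneg ht0.le _), ← Real.rpow_add ht0]
              congr 3
              ring
      · have : {a : V | t < ‖Ext μ g a‖} = ∅ := by
          ext a
          refine iff_of_false ?_ (notMem_empty a)
          exact not_lt.2 ((norm_Ext_le_meas hΩ h1 h0 a).trans (not_le.1 htM).le)
        rw [this]
        simp
    have e3 : ∫⁻ t in Ioi (0 : ℝ), (Ioc 0 M).indicator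
          (fun t => (C * μ Ω) * ENNReal.ofReal (t ^ (q - 1 - s))) t =
        (C * μ Ω) * ENNReal.ofReal (M ^ (q - s) / (q - s)) := by
      rw [lintegral_indicator measurableSet_Ioc, Measure.restrict_restrict measurableSet_Ioc,
        inter_eq_left.2 Ioc_subset_Ioi_self, lintegral_const_mul _ (by fun_prop),
        lint_rpow hM0 (by linarith)]
      ring_nf
    have e4 : ENNReal.ofReal (M ^ (q - s) / (q - s)) =
        ENNReal.ofReal (1 / (q - s)) * (μ Ω) ^ (q - s) := by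
      rw [← hMμ, ENNReal.ofReal_rpow_of_nonneg hM0 (by linarith),
        ← ENNReal.ofReal_mul (by apply one_div_nonneg.2; linarith)]
      congr 1
      ring
    calc ENNReal.ofReal q * ∫⁻ t in Ioi (0 : ℝ), volume {a : V | t < ‖Ext μ g a‖} *
          ENNReal.ofReal (t ^ (q - 1))
        ≤ ENNReal.ofReal q * ((C * μ Ω) * ENNReal.ofReal (M ^ (q - s) / (q - s))) := by
          rw [← e3]; gcongr
      _ = K * ((μ Ω) * (μ Ω) ^ (q - s)) := by
          rw [e4, hK]; ring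
      _ = K * (μ Ω) ^ (1 + (q - s)) := by
          rcases eq_or_ne (μ Ω) 0 with h00 | h00
          · rw [h00, ENNReal.zero_rpow_of_pos (by linarith : (0 : ℝ) < 1 + (q - s)), zero_mul]
          · rw [ENNReal.rpow_add _ _ h00 (measure_ne_top μ Ω), ENNReal.rpow_one]
  rw [eLpNorm_eq_lintegral_rpow_enorm_toReal (by simpa using hq0) ENNReal.ofReal_ne_top,
    ENNReal.toReal_ofReal hq0.le]
  calc (∫⁻ x, ‖Ext μ g x‖ₑ ^ q) ^ (1 / q)
      ≤ (K * (μ Ω) ^ (1 + (q - s))) ^ (1 / q) := by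
        gcongr
    _ = K ^ (1 / q) * (μ Ω) ^ (1 / q + (q - s) / q) := by
        rw [ENNReal.mul_rpow_of_nonneg _ _ (by positivity), ← ENNReal.rpow_mul]
        congr 2
        field_simp
    _ = _ := by
        rw [ENNReal.coe_toNNReal]
        exact ENNReal.rpow_ne_top_of_nonneg (by positivity) hKt

lemma Ext_add {a b : V → ℂ} (ha : Integrable a μ) (hb : Integrable b μ) :
    Ext μ (fun ξ => a ξ + b ξ) = fun x => Ext μ a x + Ext μ b x := by
  funext x
  unfold Vale.Agent.P122.EPS.Ext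
  have h : ∀ {c : V → ℂ}, Integrable c μ → Integrable (fun ξ => c ξ * ch x ξ) μ := by
    intro c hc
    refine hc.norm.mono' (hc.aestronglyMeasurable.mul
      (continuous_ch_right x).aestronglyMeasurable) (Filter.Eventually.of_forall fun ξ => ?_)
    simp
  rw [← integral_add (h ha) (h hb)]
  congr 1
  funext ξ
  ring

lemma Ext_smul (c : ℝ) (a : V → ℂ) :
    Ext μ (fun ξ => (c : ℂ) * a ξ) = fun x => (c : ℂ) * Ext μ a x := by
  funext x
  unfold Vale.Agent.P122.EPS.Ext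
  rw [← integral_const_mul]
  congr 1
  funext ξ
  ring

/-- The bound for functions of norm at most one. -/
lemma unit_bound (h : RWeak μ) {q : ℝ} (hq : 3 < q) :
    ∃ B : ℝ≥0, ∀ f : V → ℂ, Measurable f → eLpNorm f (ENNReal.ofReal q) μ ≤ 1 →
      eLpNorm (Ext μ f) (ENNReal.ofReal q) volume ≤ B := by
  obtain ⟨C, η, hη, hC⟩ := gain h hq
  have hq0 : 0 < q := by linarith
  set r : ℝ≥0∞ := ENNReal.ofReal (2 ^ (-(q * η))) with hr
  have hr1 : r < 1 := by
    rw [hr, ← ENNReal.ofReal_one]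
    refine (ENNReal.ofReal_lt_ofReal_iff one_pos).2 ?_
    exact Real.rpow_lt_one_of_one_lt_of_neg (by norm_num) (by nlinarith)
  set A : ℝ≥0∞ := C * (μ univ) ^ (1 / q + η) with hA
  set B : ℝ≥0∞ := A + 2 * C * (1 - r)⁻¹ with hB
  have hBt : B ≠ ∞ := by
    refine ENNReal.add_ne_top.2 ⟨?_, ?_⟩
    · exact ENNReal.mul_ne_top ENNReal.coe_ne_top
        (ENNReal.rpow_ne_top_of_nonneg (by positivity) (measure_ne_top μ _))
    · refine ENNReal.mul_ne_top (ENNReal.mul_ne_top (by norm_num) ENNReal.coe_ne_top) ?_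
      exact ENNReal.inv_ne_top.2 (tsub_pos_of_lt hr1).ne'
  refine ⟨B.toNNReal, fun f hf hf1 => ?_⟩
  rw [ENNReal.coe_toNNReal hBt]
  have hq1 : (1 : ℝ≥0∞) ≤ ENNReal.ofReal q := by
    rw [← ENNReal.ofReal_one]; exact ENNReal.ofReal_le_ofReal (by linarith)
  have hfL : MemLp f (ENNReal.ofReal q) μ :=
    ⟨hf.aestronglyMeasurable, lt_of_le_of_lt hf1 ENNReal.one_lt_top⟩
  have hfint : Integrable f μ := hfL.integrable hq1
  -- the pieces
  set F : ℕ → V → ℂ := fun n => {ξ | ‖f ξ‖ ≤ 2 ^ n}.indicator f with hF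
  set G : ℕ → V → ℂ := fun n => {ξ | 2 ^ n < ‖f ξ‖ ∧ ‖f ξ‖ ≤ 2 ^ (n + 1)}.indicator f with hG
  have hSm : ∀ n : ℕ, MeasurableSet {ξ | ‖f ξ‖ ≤ 2 ^ n} := fun n =>
    measurableSet_le hf.norm measurable_const
  have hΩm : ∀ n : ℕ, MeasurableSet {ξ | 2 ^ n < ‖f ξ‖ ∧ ‖f ξ‖ ≤ 2 ^ (n + 1)} := fun n =>
    (measurableSet_lt measurable_const hf.norm).inter (measurableSet_le hf.norm measurable_const)
  have hFm : ∀ n, Measurable (F n) := fun n => hf.indicator (hSm n)
  have hGm : ∀ n, Measurable (G n) := fun n => hf.indicator (hΩm n)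
  have hFb : ∀ n ξ, ‖F n ξ‖ ≤ 2 ^ n := by
    intro n ξ
    by_cases hξ : ξ ∈ {ξ | ‖f ξ‖ ≤ 2 ^ n}
    · simp only [hF, indicator_of_mem hξ]; exact hξ
    · simp only [hF, indicator_of_notMem hξ, norm_zero]; positivity
  have hGb : ∀ n ξ, ‖G n ξ‖ ≤ 2 ^ (n + 1) := by
    intro n ξ
    by_cases hξ : ξ ∈ {ξ | 2 ^ n < ‖f ξ‖ ∧ ‖f ξ‖ ≤ 2 ^ (n + 1)}
    · simp only [hG, indicator_of_mem hξ]; exact hξ.2
    · simp only [hG, indicator_of_notMem hξ, norm_zero]; positivity
  have hFi : ∀ n, Integrable (F n) μ := fun n => integrable_of_bdd (hFm n) (hFb n)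
  have hGi : ∀ n, Integrable (G n) μ := fun n => integrable_of_bdd (hGm n) (hGb n)
  have hFG : ∀ n, F (n + 1) = fun ξ => F n ξ + G n ξ := by
    intro n
    funext ξ
    have h2 : (2 : ℝ) ^ n ≤ 2 ^ (n + 1) := pow_le_pow_right₀ (by norm_num) (Nat.le_succ n)
    simp only [hF, hG, indicator_apply, Set.mem_ofPred_eq]
    by_cases c1 : ‖f ξ‖ ≤ 2 ^ n
    · rw [if_pos (c1.trans h2), if_pos c1, if_neg (fun hh => not_lt.2 c1 hh.1), add_zero]
    · by_cases c2 : ‖f ξ‖ ≤ 2 ^ (n + 1)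
      · rw [if_pos c2, if_neg c1, if_pos ⟨not_le.1 c1, c2⟩, zero_add]
      · rw [if_neg c2, if_neg c1, if_neg (fun hh => c2 hh.2), add_zero]
  -- the bound of a piece
  have hΩμ : ∀ n : ℕ, (μ {ξ | 2 ^ n < ‖f ξ‖ ∧ ‖f ξ‖ ≤ 2 ^ (n + 1)}) ^ (1 / q + η) ≤
      ENNReal.ofReal ((2 ^ n)⁻¹) * r ^ n := by
    intro n
    have c1 := mul_meas_ge_le_pow_eLpNorm' μ (p := ENNReal.ofReal q) (by simpa using hq0)
      ENNReal.ofReal_ne_top hf.aestronglyMeasurable (ENNReal.ofReal (2 ^ n))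
    rw [ENNReal.toReal_ofReal hq0.le] at c1
    have c2 : μ {ξ | 2 ^ n < ‖f ξ‖ ∧ ‖f ξ‖ ≤ 2 ^ (n + 1)} ≤
        μ {x | ENNReal.ofReal (2 ^ n) ≤ ‖f x‖ₑ} := by
      refine measure_mono fun ξ hξ => ?_
      show ENNReal.ofReal (2 ^ n) ≤ ‖f ξ‖ₑ
      rw [← ofReal_norm]
      exact ENNReal.ofReal_le_ofReal hξ.1.le
    have h2n : (0 : ℝ) < 2 ^ n := by positivity
    have c3 : μ {x | ENNReal.ofReal (2 ^ n) ≤ ‖f x‖ₑ} ≤ ENNReal.ofReal ((2 ^ n) ^ (-q)) := by
      rw [ENNReal.ofReal_rpow_of_pos h2n] at c1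
      have c4 : ENNReal.ofReal ((2 ^ n) ^ (-q)) * ENNReal.ofReal ((2 ^ n) ^ q) = 1 := by
        rw [← ENNReal.ofReal_mul (by positivity), ← Real.rpow_add h2n]
        simp
      calc μ {x | ENNReal.ofReal (2 ^ n) ≤ ‖f x‖ₑ}
          = ENNReal.ofReal ((2 ^ n) ^ (-q)) * (ENNReal.ofReal ((2 ^ n) ^ q) *
              μ {x | ENNReal.ofReal (2 ^ n) ≤ ‖f x‖ₑ}) := by
            rw [← mul_assoc, c4, one_mul]
        _ ≤ ENNReal.ofReal ((2 ^ n) ^ (-q)) * (eLpNorm f (ENNReal.ofReal q) μ ^ q) := by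
            gcongr
        _ ≤ ENNReal.ofReal ((2 ^ n) ^ (-q)) * (1 ^ q) := by
            gcongr
        _ = _ := by simp
    calc (μ {ξ | 2 ^ n < ‖f ξ‖ ∧ ‖f ξ‖ ≤ 2 ^ (n + 1)}) ^ (1 / q + η)
        ≤ (ENNReal.ofReal ((2 ^ n) ^ (-q))) ^ (1 / q + η) := by
          gcongr
          exact c2.trans c3
      _ = ENNReal.ofReal (((2 ^ n) ^ (-q)) ^ (1 / q + η)) := by
          rw [ENNReal.ofReal_rpow_of_pos (by positivity)]
      _ = ENNReal.ofReal ((2 ^ n)⁻¹ * (2 ^ (-(q * η))) ^ n) := by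
          congr 1
          rw [← Real.rpow_mul h2n.le]
          have e1 : -q * (1 / q + η) = -1 + -(q * η) := by field_simp; ring
          rw [e1, Real.rpow_add h2n, Real.rpow_neg_one, ← Real.rpow_natCast,
            ← Real.rpow_natCast, ← Real.rpow_mul (by norm_num), ← Real.rpow_mul (by norm_num)]
          congr 2
          ring
      _ = _ := by
          rw [ENNReal.ofReal_mul (by positivity), ENNReal.ofReal_pow (by positivity)]
  have hpiece : ∀ n, eLpNorm (Ext μ (G n)) (ENNReal.ofReal q) volume ≤ 2 * C * r ^ n := by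
    intro n
    have h2n : (0 : ℝ) < 2 ^ (n + 1) := by positivity
    set g : V → ℂ := fun ξ => ((((2 : ℝ) ^ (n + 1))⁻¹ : ℝ) : ℂ) * G n ξ with hg
    have hgm : Measurable g := measurable_const.mul (hGm n)
    have hg1 : ∀ ξ, ‖g ξ‖ ≤ 1 := by
      intro ξ
      rw [hg]
      simp only [norm_mul, Complex.norm_real, norm_inv, norm_pow, Real.norm_ofNat]
      rw [inv_mul_le_iff₀ h2n, mul_one]
      exact hGb n ξ
    have hg0 : ∀ ξ, ξ ∉ {ξ | 2 ^ n < ‖f ξ‖ ∧ ‖f ξ‖ ≤ 2 ^ (n + 1)} → g ξ = 0 := by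
      intro ξ hξ
      simp only [hg, hG, indicator_of_notMem hξ, mul_zero]
    have e0 : G n = fun ξ => (((2 : ℝ) ^ (n + 1) : ℝ) : ℂ) * g ξ := by
      funext ξ
      rw [hg]
      simp only
      rw [← mul_assoc, ← Complex.ofReal_mul, mul_inv_cancel₀ h2n.ne', Complex.ofReal_one, one_mul]
    rw [e0, Ext_smul]
    have e1 : (fun x => (((2 : ℝ) ^ (n + 1) : ℝ) : ℂ) * Ext μ g x) =
        (((2 : ℝ) ^ (n + 1) : ℝ) : ℂ) • Ext μ g := rfl
    rw [e1, eLpNorm_const_smul]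
    have e2 : ‖(((2 : ℝ) ^ (n + 1) : ℝ) : ℂ)‖ₑ = ENNReal.ofReal (2 ^ (n + 1)) := by
      rw [← ofReal_norm, Complex.norm_real, Real.norm_of_nonneg h2n.le]
    rw [e2]
    calc ENNReal.ofReal (2 ^ (n + 1)) * eLpNorm (Ext μ g) (ENNReal.ofReal q) volume
        ≤ ENNReal.ofReal (2 ^ (n + 1)) * (C *
          (μ {ξ | 2 ^ n < ‖f ξ‖ ∧ ‖f ξ‖ ≤ 2 ^ (n + 1)}) ^ (1 / q + η)) := by
          gcongr
          exact hC g _ hgm (hΩm n) hg1 hg0
      _ ≤ ENNReal.ofReal (2 ^ (n + 1)) * (C * (ENNReal.ofReal ((2 ^ n)⁻¹) * r ^ n)) := by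
          gcongr
          exact hΩμ n
      _ = (ENNReal.ofReal (2 ^ (n + 1)) * ENNReal.ofReal ((2 ^ n)⁻¹)) * C * r ^ n := by ring
      _ = 2 * C * r ^ n := by
          rw [← ENNReal.ofReal_mul h2n.le]
          congr 3
          rw [pow_succ, mul_comm ((2 : ℝ) ^ n) 2, mul_assoc,
            mul_inv_cancel₀ (by positivity), mul_one]
          norm_num
  have hsum : ∀ n, eLpNorm (Ext μ (F n)) (ENNReal.ofReal q) volume ≤
      A + ∑ k ∈ Finset.range n, 2 * C * r ^ k := by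
    intro n
    induction n with
    | zero =>
      rw [Finset.range_zero, Finset.sum_empty, add_zero]
      refine hC (F 0) univ (hFm 0) MeasurableSet.univ (fun ξ => ?_) (fun ξ hξ => ?_)
      · simpa using hFb 0 ξ
      · exact absurd (mem_univ ξ) hξ
    | succ n ih =>
      rw [hFG n, Ext_add (hFi n) (hGi n), Finset.sum_range_succ, ← add_assoc]
      refine (eLpNorm_add_le (continuous_Ext (hFi n)).aestronglyMeasurable
        (continuous_Ext (hGi n)).aestronglyMeasurable hq1).trans ?_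
      exact add_le_add ih (hpiece n)
  have hFB : ∀ n, eLpNorm (Ext μ (F n)) (ENNReal.ofReal q) volume ≤ B := by
    intro n
    refine (hsum n).trans ?_
    rw [hB, ← Finset.mul_sum]
    gcongr
    rw [← ENNReal.tsum_geometric]
    exact ENNReal.sum_le_tsum _
  have hlim : ∀ x, Tendsto (fun n => Ext μ (F n) x) atTop (𝓝 (Ext μ f x)) := by
    intro x
    unfold Vale.Agent.P122.EPS.Ext
    refine tendsto_integral_of_dominated_convergence (fun ξ => ‖f ξ‖) ?_ hfint.norm ?_ ?_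
    · intro n
      exact (hFm n).aestronglyMeasurable.mul (continuous_ch_right x).aestronglyMeasurable
    · intro n
      refine Filter.Eventually.of_forall fun ξ => ?_
      rw [norm_mul, norm_ch, mul_one]
      exact norm_indicator_le_norm_self _ _
    · refine Filter.Eventually.of_forall fun ξ => ?_
      refine tendsto_const_nhds.congr' ?_
      obtain ⟨N, hN⟩ := pow_unbounded_of_one_lt ‖f ξ‖ (one_lt_two : (1 : ℝ) < 2)
      filter_upwards [eventually_ge_atTop N] with n hn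
      have : ‖f ξ‖ ≤ 2 ^ n := hN.le.trans (pow_le_pow_right₀ (by norm_num) hn)
      have hmem : ξ ∈ {ξ | ‖f ξ‖ ≤ 2 ^ n} := this
      simp only [hF, indicator_of_mem hmem]
  refine (Lp.eLpNorm_lim_le_liminf_eLpNorm
    (fun n => (continuous_Ext (hFi n)).aestronglyMeasurable) (Ext μ f)
    (Filter.Eventually.of_forall hlim)).trans ?_
  refine (Filter.liminf_le_liminf (Filter.Eventually.of_forall hFB)).trans ?_
  rw [Filter.liminf_const]

end Vale.Agent.P122.H346

namespace Vale.Agent.P122.H346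

open MeasureTheory Set Vale.Agent.P122.EPS
open scoped ENNReal NNReal

/-- Restricted weak type bounds above `3` imply the strong diagonal bounds above `3` (spare copy of
the theorem of the same name in `EPS895`). -/
theorem strong_of_rweak {μ : Measure V} [IsFiniteMeasure μ] (h : RWeak μ) : Strong μ := by
  intro p hp
  obtain ⟨B, hB⟩ := Vale.Agent.P122.H346.unit_bound h hp
  refine ⟨B + 1, fun f hf => ?_⟩
  have hp0 : 0 < p := by linarith
  set N : ℝ≥0∞ := eLpNorm f (ENNReal.ofReal p) μ with hN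
  rcases eq_or_ne N ∞ with hNt | hNt
  · rw [hNt, ENNReal.mul_top (by simp)]
    exact le_top
  rcases eq_or_ne N 0 with hN0 | hN0
  · have h0 : f =ᵐ[μ] 0 :=
      (eLpNorm_eq_zero_iff hf.aestronglyMeasurable (by simpa using hp0)).1 (hN ▸ hN0)
    have h1 : Ext μ f = fun _ => 0 := by
      funext x
      unfold Vale.Agent.P122.EPS.Ext
      rw [integral_congr_ae (g := fun _ => (0 : ℂ)), integral_zero]
      filter_upwards [h0] with ξ hξ
      rw [hξ]
      simp
    rw [h1]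
    simp
  set c : ℝ := N.toReal with hc
  have hc0 : 0 < c := ENNReal.toReal_pos hN0 hNt
  have hcN : ENNReal.ofReal c = N := ENNReal.ofReal_toReal hNt
  set g : V → ℂ := fun ξ => ((c⁻¹ : ℝ) : ℂ) * f ξ with hg
  have hgm : Measurable g := measurable_const.mul hf
  have hg1 : eLpNorm g (ENNReal.ofReal p) μ ≤ 1 := by
    have e1 : g = ((c⁻¹ : ℝ) : ℂ) • f := rfl
    rw [e1, eLpNorm_const_smul, ← hN, ← ofReal_norm, Complex.norm_real,
      Real.norm_of_nonneg (inv_nonneg.2 hc0.le), ← hcN, ← ENNReal.ofReal_mul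
      (inv_nonneg.2 hc0.le), inv_mul_cancel₀ hc0.ne', ENNReal.ofReal_one]
  have e0 : f = fun ξ => ((c : ℝ) : ℂ) * g ξ := by
    funext ξ
    rw [hg]
    simp only
    rw [← mul_assoc, ← Complex.ofReal_mul, mul_inv_cancel₀ hc0.ne', Complex.ofReal_one, one_mul]
  have e1 : Ext μ f = ((c : ℝ) : ℂ) • Ext μ g := by
    conv_lhs => rw [e0]
    rw [Vale.Agent.P122.H346.Ext_smul]
    rfl
  rw [e1, eLpNorm_const_smul, ← ofReal_norm, Complex.norm_real, Real.norm_of_nonneg hc0.le, hcN,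
    mul_comm]
  gcongr
  refine (hB g hgm hg1).trans ?_
  exact_mod_cast le_self_add

end Vale.Agent.P122.H346
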